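import Vale.Agent.P099.Glue

namespace Vale.Agent.Results.P099.WeakMixing

open MeasureTheory Filter Vale.Agent.P099
open scoped EuclideanGeometry

/-- The billiard flow in every irrational triangle is ergodic and weakly mixing. -/
theorem result (V : Fin 3 → ℂ) (hV : AffineIndependent ℝ V)
    (hirr : ∃ j : Fin 3, Irrational (∠ (V (j + 1)) (V j) (V (j + 2)) / Real.pi)) :
    IsProbabilityMeasure (liouville V) ∧
    (∀ᵐ p ∂liouville V,
      Tendsto (hitTime V p) atTop atTop ∧ Tendsto (hitTime V (rev p)) atTop atTop) ∧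
    (∀ t : ℝ, AEMeasurable (flow V t) (liouville V) ∧
      (liouville V).map (flow V t) = liouville V) ∧
    (∀ s t : ℝ, ∀ᵐ p ∂liouville V, flow V s (flow V t p) = flow V (s + t) p) ∧
    IsErgodicFlow (liouville V) (flow V) ∧
    IsErgodicFlow ((liouville V).prod (liouville V))
      (fun t => Prod.map (flow V t) (flow V t)) := by
  have hA := area_ne_zero hV
  obtain ⟨j, hj⟩ := hirr
  have := isProb_liouville hA
  exact ⟨this, hitTime_tendsto hA, mp_flow hA, flow_flow hA, ergodic_of_weak (weak_mixing hA hj),
    weak_mixing hA hj⟩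

end Vale.Agent.Results.P099.WeakMixing
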